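import Mathlib
import Vale.Agent.P027.H123.Asm
import Vale.Agent.P027.R4.H788.Bridge
import Vale.Agent.P027.R4.H297.CompF

namespace Vale.Agent.Results.P027.LogLogComplement

open Vale.Agent.P345 Vale.Agent.P027 Vale.Agent.P027.D1 Vale.Agent.P027.HT in
/-- Let `E : y ^ 2 = x ^ 3 - 2 x`, `P = (-1, 1)`. There are rational `x n`, `y n` with
`n P = (x n, y n)` for all `n ≠ 0`. Let `D` be the set of the primes that divide the denominator of
some `x (2 3 ^ s 5 ^ t)`. For a set `T` of primes let `C T` be the collection of the sets `R` of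
rational numbers that contain all rational numbers whose denominators have only prime divisors in
`D` outside of `T`, and all of whose elements have denominators prime to `T`. If `T` is a subset of
`D` and `S` is any set of primes whose intersection with `D` is the complement of `T` in `D`, then
the ring `Z[1/S]` is in `C T`; in particular this holds for all primes outside of `T`.
There is one polynomial `G` with integer coefficients such that the following holds.
Part 1: for every recursively enumerable set `A` of natural numbers and every real `ε > 0` there are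
a natural number `c` and a computable set `T` of primes in `D` that has at most `ε log log n`
elements up to `n`, for all large `n`, such that for all `R` in `C T` and all natural numbers `a`:
`a` is in `A` if and only if the polynomial `G (5 ^ a, 3, X₀ ^ (2 ^ (c (a + 1) (a + 2))), X)` in
`X = (X₀, ..., Xₘ)` has a zero in `R`.
Part 2: for every recursively enumerable set `A` of natural numbers and every computable monotone
unbounded function `g` there are a computable function `B` and a computable set `T` of primes in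
`D` that has at most `g n log log n` elements up to `n`, for all large `n`, such that for all `R` in
`C T` and all natural numbers `a`: `a` is in `A` if and only if the polynomial
`G (5 ^ a, B a, X₀ ^ 2, X)` has a zero in `R`.
Part 3: there is a recursively enumerable set `A` to which every recursively enumerable set is
many-one reducible; so it is not computable, and by parts 1 and 2 there is no algorithm which
decides for these `R` whether a polynomial with integer coefficients has a zero in `R`. -/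
theorem result (E : WeierstrassCurve.Affine ℚ) (hE : E = ⟨0, 0, 0, -2, 0⟩) (P : E.Point)
    (hP : ∃ h, P = WeierstrassCurve.Affine.Point.some (-1) 1 h) :
    ∃ x y : ℤ → ℚ,
    (∀ n : ℤ, n ≠ 0 → ∃ h, n • P = WeierstrassCurve.Affine.Point.some (x n) (y n) h) ∧
    ∀ D : Set ℕ, D = {q | q.Prime ∧ ∃ s t : ℕ, q ∣ (x (2 * 3 ^ s * 5 ^ t)).den} →
    ∀ C : Set ℕ → Set (Set ℚ), (∀ T : Set ℕ, C T = {R |
      (∀ r : ℚ, (∀ q : ℕ, q.Prime → q ∣ r.den → q ∈ D ∧ q ∉ T) → r ∈ R) ∧
      ∀ r ∈ R, ∀ q ∈ T, ¬ q ∣ r.den}) →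
    (∀ T S : Set ℕ, T ⊆ D → (∀ q ∈ D, (q ∈ S ↔ q ∉ T)) →
      {r : ℚ | ∀ q : ℕ, q.Prime → q ∣ r.den → q ∈ S} ∈ C T) ∧
    ∃ (m : ℕ) (G : MvPolynomial (Fin 3 ⊕ Fin (m + 1)) ℤ),
    -- Part 1
    (∀ A : Set ℕ, REPred (fun a => a ∈ A) → ∀ ε : ℝ, 0 < ε →
      ∃ (c : ℕ) (T : Set ℕ), T ⊆ D ∧ ComputablePred (fun q => q ∈ T) ∧
        (∀ᶠ n : ℕ in Filter.atTop,
          ((T ∩ Set.Iic n).ncard : ℝ) ≤ ε * Real.log (Real.log n)) ∧
        ∀ R ∈ C T, ∀ a : ℕ, (a ∈ A ↔ ∃ X : Fin (m + 1) → ℚ, (∀ i, X i ∈ R) ∧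
          MvPolynomial.aeval
            (Sum.elim ![(5 : ℚ) ^ a, 3, X 0 ^ (2 ^ (c * ((a + 1) * (a + 2))))] X) G = 0)) ∧
    -- Part 2
    (∀ A : Set ℕ, REPred (fun a => a ∈ A) → ∀ g : ℕ → ℕ, Computable g → Monotone g →
      (∀ M, ∃ n, M ≤ g n) →
      ∃ (B : ℕ → ℕ) (T : Set ℕ), Computable B ∧ T ⊆ D ∧ ComputablePred (fun q => q ∈ T) ∧
        (∀ᶠ n : ℕ in Filter.atTop,
          ((T ∩ Set.Iic n).ncard : ℝ) ≤ g n * Real.log (Real.log n)) ∧
        ∀ R ∈ C T, ∀ a : ℕ, (a ∈ A ↔ ∃ X : Fin (m + 1) → ℚ, (∀ i, X i ∈ R) ∧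
          MvPolynomial.aeval (Sum.elim ![(5 : ℚ) ^ a, (B a : ℚ), X 0 ^ 2] X) G = 0)) ∧
    -- Part 3
    (∃ A : Set ℕ, REPred (fun a => a ∈ A) ∧ ¬ REPred (fun a => a ∉ A) ∧
      ¬ ComputablePred (fun a => a ∈ A) ∧
      ∀ A' : Set ℕ, REPred (fun n => n ∈ A') →
        ∃ f : ℕ → ℕ, Computable f ∧ ∀ n, (n ∈ A' ↔ f n ∈ A)) := by
  obtain rfl : E = Vale.Agent.P345.EC := hE
  obtain rfl : P = Vale.Agent.P345.P0 := by
    obtain ⟨h, hP⟩ := hP
    exact hP
  obtain ⟨y, hy⟩ := exists_y
  refine ⟨fun n => xc (n • Vale.Agent.P345.P0), y, fun n hn => ?_, fun D hD C hC => ?_⟩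
  · obtain ⟨h1, h2⟩ := hy n hn
    exact ⟨_, h2⟩
  have hDD : D = H123.DD := hD
  subst hDD
  have hRg : ∀ T R, R ∈ C T ↔ H123.Rg T R := by
    intro T R
    rw [hC]
    exact ⟨fun h => ⟨h.1, h.2⟩, fun h => ⟨h.sup, h.sub⟩⟩
  refine ⟨fun T S hT hS => ?_, ?_⟩
  · rw [hC]
    refine ⟨fun r hr q hq hqr => ?_, fun r hr q hqT hqr => ?_⟩
    · obtain ⟨h1, h2⟩ := hr q hq hqr
      exact (hS q h1).2 h2
    · have hqD := hT hqT
      exact (hS q hqD).1 (hr q hqD.1 hqr) hqT
  obtain ⟨m, G, hG⟩ := H123.exists_poly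
  refine ⟨m, G, fun A hA ε hε => ?_, fun A hA g hg hgm hgu => ?_, ?_⟩
  · obtain ⟨c, T, h1, h2, h3, h4⟩ := H123.part1 hA hε
    refine ⟨c, T, h1, h2, h3, fun R hR a => ?_⟩
    have hR' := (hRg T R).1 hR
    rw [h4 R hR' a]
    exact hG R (fun z => hR'.int z) _ _ _
  · obtain ⟨B, T, h0, h1, h2, h3, h4⟩ := H123.part2 hA hg hgm hgu
    refine ⟨B, T, h0, h1, h2, h3, fun R hR a => ?_⟩
    have hR' := (hRg T R).1 hR
    rw [h4 R hR' a]
    exact hG R (fun z => hR'.int z) _ _ _
  · obtain ⟨p, hp, huniv⟩ := universal_re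
    have hno : ¬ REPred (fun a => a ∉ {a | p a}) := by
      intro h
      obtain ⟨q, hq, hqn⟩ := N1.halting
      obtain ⟨g, hg, hgq⟩ := huniv q hq
      apply hqn
      have h1 : REPred (fun n => ¬ p (g n)) := N1.comp_re h hg
      exact h1.of_eq (fun n => by rw [← hgq n])
    refine ⟨{a | p a}, hp, hno, fun h => hno ?_, fun A' hA' => ?_⟩
    · exact h.not.to_re
    · obtain ⟨g, hg, hgA⟩ := huniv _ hA'
      exact ⟨g, hg, hgA⟩

end Vale.Agent.Results.P027.LogLogComplement
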