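import Mathlib
import Vale.Agent.P027.Q.Fin
import Vale.Agent.P027.H790.Prim
import Vale.Agent.P027.H790.Law3
import Vale.Agent.P027.R4.H297.CompF

namespace Vale.Agent.Results.P027.LogLogLogComplement

open Vale.Agent.P345 Vale.Agent.P027 Vale.Agent.P027.D1 in
/-- Let `E : y ^ 2 = x ^ 3 + 10 x ^ 2 - 7 x`, `P = (-1, 4)`. There are rational `x n`, `y n` with
`n P = (x n, y n)` for all `n ≠ 0`. Let `D` be the set of the primes that divide the denominator of
`x n` for some odd `n`; they are congruent to `1` modulo `4`. For a set `T` of primes let `C T` be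
the collection of the sets `R` of rational numbers that contain all rational numbers whose
denominators have only prime divisors in `D` outside of `T`, and all of whose elements have
denominators prime to `T`. If `T` is a subset of `D` and `S` is any set of primes whose intersection
with `D` is the complement of `T` in `D`, then the ring `Z[1/S]` is in `C T`; in particular this
holds for all primes outside of `T`.
Part 1: there is one polynomial `G` with integer coefficients such that for every recursively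
enumerable set `A` of natural numbers and every computable monotone unbounded function `g` there are
a computable function `B` and a computable set `T` of primes in `D` that has at most
`g n log log log n` elements up to `n`, for all large `n`, such that for all `R` in `C T` and all
natural numbers `a`: `a` is in `A` if and only if the polynomial `G (7 ^ a, B a, X)` has a zero in
`R`.
Part 2: there is a recursively enumerable set `A` to which every recursively enumerable set is
many-one reducible; so it is not computable, and by part 1 there is no algorithm which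
decides for these `R` whether a polynomial with integer coefficients has a zero in `R`.
Part 3: over the rational numbers. There is a polynomial `F` with integer coefficients such that
the Diophantine relation that `F (s, s', w) = 0` for some rational `w` has an infinite chain
`s 0, s 1, s 2, ...`, and for every chain `s 0, ..., s m`, `m` large, the height of `s m` is at least
`2 ^ 2 ^ 2 ^ 2 ^ (m - 1)`. -/
theorem result (E : WeierstrassCurve.Affine ℚ) (hE : E = ⟨0, 10, 0, -7, 0⟩) (P : E.Point)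
    (hP : ∃ h, P = WeierstrassCurve.Affine.Point.some (-1) 4 h) :
    (∃ x y : ℤ → ℚ,
    (∀ n : ℤ, n ≠ 0 → ∃ h, n • P = WeierstrassCurve.Affine.Point.some (x n) (y n) h) ∧
    ∀ D : Set ℕ, D = {q | q.Prime ∧ ∃ n : ℤ, Odd n ∧ q ∣ (x n).den} →
    (∀ q ∈ D, q % 4 = 1) ∧
    ∀ C : Set ℕ → Set (Set ℚ), (∀ T : Set ℕ, C T = {R |
      (∀ r : ℚ, (∀ q : ℕ, q.Prime → q ∣ r.den → q ∈ D ∧ q ∉ T) → r ∈ R) ∧
      ∀ r ∈ R, ∀ q ∈ T, ¬ q ∣ r.den}) →
    (∀ T S : Set ℕ, T ⊆ D → (∀ q ∈ D, (q ∈ S ↔ q ∉ T)) →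
      {r : ℚ | ∀ q : ℕ, q.Prime → q ∣ r.den → q ∈ S} ∈ C T) ∧
    -- Part 1
    ∃ (m : ℕ) (G : MvPolynomial (Fin 2 ⊕ Fin m) ℤ),
    ∀ A : Set ℕ, REPred (fun a => a ∈ A) → ∀ g : ℕ → ℕ, Computable g → Monotone g →
      (∀ M, ∃ n, M ≤ g n) →
      ∃ (B : ℕ → ℕ) (T : Set ℕ), Computable B ∧ T ⊆ D ∧ ComputablePred (fun q => q ∈ T) ∧
        (∀ᶠ n : ℕ in Filter.atTop,
          ((T ∩ Set.Iic n).ncard : ℝ) ≤ g n * Real.log (Real.log (Real.log n))) ∧
        ∀ R ∈ C T, ∀ a : ℕ, (a ∈ A ↔ ∃ X : Fin m → ℚ, (∀ i, X i ∈ R) ∧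
          MvPolynomial.aeval (Sum.elim ![(7 : ℚ) ^ a, (B a : ℚ)] X) G = 0)) ∧
    -- Part 2
    (∃ A : Set ℕ, REPred (fun a => a ∈ A) ∧ ¬ REPred (fun a => a ∉ A) ∧
      ¬ ComputablePred (fun a => a ∈ A) ∧
      ∀ A' : Set ℕ, REPred (fun n => n ∈ A') →
        ∃ f : ℕ → ℕ, Computable f ∧ ∀ n, (n ∈ A' ↔ f n ∈ A)) ∧
    -- Part 3
    (∃ (k : ℕ) (F : MvPolynomial (Fin 2 ⊕ Fin k) ℤ) (m₀ : ℕ),
      (∃ s : ℕ → ℚ, ∀ j, ∃ w : Fin k → ℚ,
        MvPolynomial.aeval (Sum.elim ![s j, s (j + 1)] w) F = 0) ∧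
      ∀ m : ℕ, m₀ ≤ m → ∀ s : ℕ → ℚ,
        (∀ j < m, ∃ w : Fin k → ℚ, MvPolynomial.aeval (Sum.elim ![s j, s (j + 1)] w) F = 0) →
        2 ^ (2 ^ (2 ^ (2 ^ (m - 1)))) ≤ max (s m).num.natAbs (s m).den) := by
  have hL : Vale.Agent.P027.Q.Law := Vale.Agent.P027.Q.law
  obtain rfl : E = Vale.Agent.P027.Q.E := hE
  obtain rfl : P = Vale.Agent.P027.Q.P0 := by
    obtain ⟨h, hP⟩ := hP
    exact hP
  refine ⟨?_, ?_, ?_⟩
  · obtain ⟨y, hy⟩ := Q.exists_y
    refine ⟨fun n => Q.xc (n • Q.P0), y, fun n hn => hy n hn, fun D hD => ?_⟩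
    have hDD : D = Q.DD := by rw [hD, Q.dd_eq]
    subst hDD
    refine ⟨fun q hq => Q.dd_mod hL hq, fun C hC => ?_⟩
    have hRg : ∀ T R, R ∈ C T ↔ Q.Rg T R := by
      intro T R
      rw [hC]
      exact ⟨fun h => ⟨h.1, h.2⟩, fun h => ⟨h.sup, h.sub⟩⟩
    refine ⟨fun T S hT hS => ?_, ?_⟩
    · rw [hC]
      refine ⟨fun r hr q hq hqr => ?_, fun r hr q hqT hqr => ?_⟩
      · obtain ⟨h1, h2⟩ := hr q hq hqr
        exact (hS q h1).2 h2
      · have hqD := hT hqT
        exact (hS q hqD).1 (hr q hqD.1 hqr) hqT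
    obtain ⟨m, G, hG⟩ := Q.exists_poly
    refine ⟨m, G, fun A hA g hg hgm hgu => ?_⟩
    obtain ⟨B, T, h0, h1, h2, h3, h4⟩ := Q.part hL Q.exists_exact
      (fun Kl hKl hN => H362.comp hL hKl hN) hA hg hgm hgu
    refine ⟨B, T, h0, h1, h2, h3, fun R hR a => ?_⟩
    have hR' := (hRg T R).1 hR
    rw [h4 R hR' a]
    exact hG R (fun z => hR'.int z) _ _
  · obtain ⟨p, hp, huniv⟩ := universal_re
    have hno : ¬ REPred (fun a => a ∉ {a | p a}) := by
      intro h
      obtain ⟨q, hq, hqn⟩ := N1.halting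
      obtain ⟨g, hg, hgq⟩ := huniv q hq
      apply hqn
      have h1 : REPred (fun n => ¬ p (g n)) := N1.comp_re h hg
      exact h1.of_eq (fun n => by rw [← hgq n])
    refine ⟨{a | p a}, hp, hno, fun h => hno ?_, fun A' hA' => ?_⟩
    · exact h.not.to_re
    · obtain ⟨g, hg, hgA⟩ := huniv _ hA'
      exact ⟨g, hg, hgA⟩
  · obtain ⟨k, F, hF⟩ := Q.exists_rh
    obtain ⟨m₀, hm₀⟩ := Q.rh_height hL
    obtain ⟨s, hs⟩ := Q.rh_chain hL
    refine ⟨k, F, m₀, ⟨s, fun j => (hF _ _).1 (hs j)⟩, fun m hm s h => ?_⟩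
    exact hm₀ s m hm (fun j hj => (hF _ _).2 (h j hj))

end Vale.Agent.Results.P027.LogLogLogComplement
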