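import Mathlib
import Vale.Agent.P027.B.Dich
import Vale.Agent.P027.B.Cor
import Vale.Agent.P027.L.Fin
import Vale.Agent.P027.L.Prim
import Vale.Agent.P027.L.Comp2
import Vale.Agent.P027.L.Law
import Vale.Agent.P027.R4.H297.CompF

namespace Vale.Agent.Results.P027.LogStarComplement

open Vale.Agent.P345 Vale.Agent.P027 Vale.Agent.P027.D1 in
/-- Let `tow 0 = 1`, `tow (k + 1) = 2 ^ tow k`; the number of the `k` with `tow k ≤ n` is the
iterated logarithm `log* n`.
Let `E : y ^ 2 = x ^ 3 + 105 x ^ 2 + 2048 x`, `P = (-64, 192)`. There are rational `x n`, `y n` with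
`n P = (x n, y n)` for all `n ≠ 0`. Let `D` be the set of the primes that divide the denominator of
`x n` for some odd `n`; they are congruent to `1` modulo `4`. For a set `T` of primes let `C T` be
the collection of the sets `R` of rational numbers that contain all rational numbers whose
denominators have only prime divisors in `D` outside of `T`, and all of whose elements have
denominators prime to `T`. If `T` is a subset of `D` and `S` is any set of primes whose intersection
with `D` is the complement of `T` in `D`, then the ring `Z[1/S]` is in `C T`; in particular this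
holds for all primes outside of `T`.
Part 1: there is one polynomial `G` with integer coefficients such that for every recursively
enumerable set `A` of natural numbers and every computable monotone unbounded function `g` there are
a computable function `B` and a computable set `T` of primes in `D` that has at most
`g n * log* n` elements up to `n`, for all large `n`, such that for all `R` in `C T` and all
natural numbers `a`: `a` is in `A` if and only if the polynomial `G (7 ^ a, B a, X)` has a zero in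
`R`.
Part 2: there is a recursively enumerable set `A` to which every recursively enumerable set is
many-one reducible; so it is not computable, and by part 1 there is no algorithm which
decides for these `R` whether a polynomial with integer coefficients has a zero in `R`.
Part 3: over the rational numbers. There is a polynomial `F` with integer coefficients such that
the Diophantine relation that `F (s, s', w) = 0` for some rational `w` has an infinite chain
`s 0, s 1, s 2, ...`, and for every chain `s 0, ..., s m` the height of `s m` is at least `tow m`.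
Part 4: for a set `T` of primes let `Dec T` say that there is an algorithm which decides whether a
polynomial with integer coefficients, given as the list of its terms, has a zero whose coordinates
have denominators prime to `T`; `Dec ∅` is the decidability of Hilbert's tenth problem over the
rational numbers. For a function `b` let `U b` say that for every computable monotone unbounded `g`
there is an infinite computable set `T` of primes with at most `g n * b n` elements up to `n`, for
all large `n`, such that `Dec T` fails. Then `U log*` holds, and `Dec ∅` fails if and only if `U 1`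
holds. -/
theorem result (tow : ℕ → ℕ) (htow : tow 0 = 1 ∧ ∀ k, tow (k + 1) = 2 ^ tow k)
    (E : WeierstrassCurve.Affine ℚ) (hE : E = ⟨0, 105, 0, 2048, 0⟩) (P : E.Point)
    (hP : ∃ h, P = WeierstrassCurve.Affine.Point.some (-64) 192 h) :
    (∃ x y : ℤ → ℚ,
    (∀ n : ℤ, n ≠ 0 → ∃ h, n • P = WeierstrassCurve.Affine.Point.some (x n) (y n) h) ∧
    ∀ D : Set ℕ, D = {q | q.Prime ∧ ∃ n : ℤ, Odd n ∧ q ∣ (x n).den} →
    (∀ q ∈ D, q % 4 = 1) ∧
    ∀ C : Set ℕ → Set (Set ℚ), (∀ T : Set ℕ, C T = {R |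
      (∀ r : ℚ, (∀ q : ℕ, q.Prime → q ∣ r.den → q ∈ D ∧ q ∉ T) → r ∈ R) ∧
      ∀ r ∈ R, ∀ q ∈ T, ¬ q ∣ r.den}) →
    (∀ T S : Set ℕ, T ⊆ D → (∀ q ∈ D, (q ∈ S ↔ q ∉ T)) →
      {r : ℚ | ∀ q : ℕ, q.Prime → q ∣ r.den → q ∈ S} ∈ C T) ∧
    -- Part 1
    ∃ (m : ℕ) (G : MvPolynomial (Fin 2 ⊕ Fin m) ℤ),
    ∀ A : Set ℕ, REPred (fun a => a ∈ A) → ∀ g : ℕ → ℕ, Computable g → Monotone g →
      (∀ M, ∃ n, M ≤ g n) →
      ∃ (B : ℕ → ℕ) (T : Set ℕ), Computable B ∧ T ⊆ D ∧ ComputablePred (fun q => q ∈ T) ∧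
        (∀ᶠ n : ℕ in Filter.atTop,
          (T ∩ Set.Iic n).ncard ≤ g n * {k | tow k ≤ n}.ncard) ∧
        ∀ R ∈ C T, ∀ a : ℕ, (a ∈ A ↔ ∃ X : Fin m → ℚ, (∀ i, X i ∈ R) ∧
          MvPolynomial.aeval (Sum.elim ![(7 : ℚ) ^ a, (B a : ℚ)] X) G = 0)) ∧
    -- Part 2
    (∃ A : Set ℕ, REPred (fun a => a ∈ A) ∧ ¬ REPred (fun a => a ∉ A) ∧
      ¬ ComputablePred (fun a => a ∈ A) ∧
      ∀ A' : Set ℕ, REPred (fun n => n ∈ A') →
        ∃ f : ℕ → ℕ, Computable f ∧ ∀ n, (n ∈ A' ↔ f n ∈ A)) ∧
    -- Part 3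
    (∃ (k : ℕ) (F : MvPolynomial (Fin 2 ⊕ Fin k) ℤ),
      (∃ s : ℕ → ℚ, ∀ j, ∃ w : Fin k → ℚ,
        MvPolynomial.aeval (Sum.elim ![s j, s (j + 1)] w) F = 0) ∧
      ∀ (m : ℕ) (s : ℕ → ℚ),
        (∀ j < m, ∃ w : Fin k → ℚ, MvPolynomial.aeval (Sum.elim ![s j, s (j + 1)] w) F = 0) →
        tow m ≤ max (s m).num.natAbs (s m).den) ∧
    -- Part 4
    (∀ Dec : Set ℕ → Prop, (∀ T : Set ℕ, Dec T ↔
      ComputablePred (fun F : List (ℤ × List ℕ) => ∃ y : ℕ → ℚ,
        (∀ i, ∀ q ∈ T, ¬ q ∣ (y i).den) ∧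
        (F.map fun t => (t.1 : ℚ) * (t.2.map y).prod).sum = 0)) →
      ∀ U : (ℕ → ℕ) → Prop, (∀ b : ℕ → ℕ, U b ↔
        ∀ g : ℕ → ℕ, Computable g → Monotone g → (∀ M, ∃ n, M ≤ g n) →
          ∃ T : Set ℕ, (∀ q ∈ T, q.Prime) ∧ T.Infinite ∧ ComputablePred (fun q => q ∈ T) ∧
            (∀ᶠ n in Filter.atTop, (T ∩ Set.Iic n).ncard ≤ g n * b n) ∧ ¬ Dec T) →
      U (fun n => {k | tow k ≤ n}.ncard) ∧ (¬ Dec ∅ ↔ U fun _ => 1)) := by
  have hL : Vale.Agent.P027.L.LawL := Vale.Agent.P027.L.lawL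
  obtain rfl : tow = Vale.Agent.P027.L.tow := by
    funext k
    induction k with
    | zero => exact htow.1
    | succ k ih => rw [htow.2, ih]; rfl
  obtain rfl : E = Vale.Agent.P027.L.E := hE
  obtain rfl : P = Vale.Agent.P027.L.P0 := by
    obtain ⟨h, hP⟩ := hP
    exact hP
  refine ⟨?_, ?_, ?_, ?_⟩
  · obtain ⟨y, hy⟩ := L.exists_y
    refine ⟨fun n => L.xc (n • L.P0), y, fun n hn => hy n hn, fun D hD => ?_⟩
    have hDD : D = L.DD := by rw [hD, L.dd_eq]
    subst hDD
    refine ⟨fun q hq => L.dd_mod hL hq, fun C hC => ?_⟩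
    have hRg : ∀ T R, R ∈ C T ↔ L.Rg T R := by
      intro T R
      rw [hC]
      exact ⟨fun h => ⟨h.1, h.2⟩, fun h => ⟨h.sup, h.sub⟩⟩
    refine ⟨fun T S hT hS => ?_, ?_⟩
    · rw [hC]
      refine ⟨fun r hr q hq hqr => ?_, fun r hr q hqT hqr => ?_⟩
      · obtain ⟨h1, h2⟩ := hr q hq hqr
        exact (hS q h1).2 h2
      · have hqD := hT hqT
        exact (hS q hqD).1 (hr q hqD.1 hqr) hqT
    obtain ⟨m, G, hG⟩ := L.exists_poly
    refine ⟨m, G, fun A hA g hg hgm hgu => ?_⟩
    obtain ⟨B, T, h0, h1, h2, h3, h4⟩ := L.part hL L.exists_exact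
      (fun Kl hKl hN => L.comp hL hKl hN) hA hg hgm hgu
    refine ⟨B, T, h0, h1, h2, h3, fun R hR a => ?_⟩
    have hR' := (hRg T R).1 hR
    rw [h4 R hR' a]
    exact hG R (fun z => hR'.int z) _ _
  · obtain ⟨p, hp, huniv⟩ := universal_re
    have hno : ¬ REPred (fun a => a ∉ {a | p a}) := by
      intro h
      obtain ⟨q, hq, hqn⟩ := N1.halting
      obtain ⟨g, hg, hgq⟩ := huniv q hq
      apply hqn
      have h1 : REPred (fun n => ¬ p (g n)) := N1.comp_re h hg
      exact h1.of_eq (fun n => by rw [← hgq n])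
    refine ⟨{a | p a}, hp, hno, fun h => hno ?_, fun A' hA' => ?_⟩
    · exact h.not.to_re
    · obtain ⟨g, hg, hgA⟩ := huniv _ hA'
      exact ⟨g, hg, hgA⟩
  · obtain ⟨M, hM, hm⟩ := L.rh_height hL
    obtain ⟨k, F, hF⟩ := L.exists_rh M
    obtain ⟨s, hs⟩ := L.rh_chain hL hM
    refine ⟨k, F, ⟨s, fun j => (hF _ _).1 (hs j)⟩, fun m s h => ?_⟩
    exact hm m s (fun j hj => (hF _ _).2 (h j hj))
  · intro Dec hDec U hU
    refine ⟨?_, ?_⟩
    · rw [hU]
      intro g hg hm hu
      obtain ⟨T, h1, h2, h3, h4, h5⟩ := B.cor g hg hm hu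
      exact ⟨T, h1, h2, h3, h4, fun h => h5 ((hDec T).1 h)⟩
    · have e : Dec ∅ ↔ ComputablePred (fun F : List (ℤ × List ℕ) =>
          ∃ y : ℕ → ℚ, (F.map fun t => (t.1 : ℚ) * (t.2.map y).prod).sum = 0) := by
        rw [hDec]
        constructor
        · intro h
          refine h.of_eq fun F => ?_
          exact ⟨fun ⟨y, _, hy⟩ => ⟨y, hy⟩, fun ⟨y, hy⟩ => ⟨y, fun i q hq => hq.elim, hy⟩⟩
        · intro h
          refine h.of_eq fun F => ?_
          exact ⟨fun ⟨y, hy⟩ => ⟨y, fun i q hq => hq.elim, hy⟩, fun ⟨y, _, hy⟩ => ⟨y, hy⟩⟩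
      rw [e, B.dich, hU]
      constructor
      · intro h g hg hm hu
        obtain ⟨T, h1, h2, h3, h4, h5⟩ := h g hg hm hu
        refine ⟨T, h1, h2, h3, ?_, fun h => h5 ((hDec T).1 h)⟩
        filter_upwards [h4] with n hn
        rwa [mul_one]
      · intro h g hg hm hu
        obtain ⟨T, h1, h2, h3, h4, h5⟩ := h g hg hm hu
        refine ⟨T, h1, h2, h3, ?_, fun h => h5 ((hDec T).2 h)⟩
        filter_upwards [h4] with n hn
        rwa [mul_one] at hn

end Vale.Agent.Results.P027.LogStarComplement
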