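import Vale.Agent.P027.H847.D.Final

set_option linter.all false

/-! Hilbert's tenth problem over the rationals is hard for nondeterministic exponential time, by
reductions computable in polynomial time. Hence no algorithm solves it in subexponential time, and
neither solvability nor unsolvability has short certificates. -/

namespace Vale.Agent.Results.P027.NexpHard

open Vale.Agent.P027.N.D
open Vale.Agent.P027.N.U (Poly toMv codeP)

theorem result :
    -- hardness for nondeterministic exponential time
    (∀ (V : List Bool → List Bool) (q : Polynomial ℕ), PolyTime V → ∃ f : List Bool → Poly,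
      (∃ T : Turing.TM2ComputableInPolyTime (id : List Bool → List Bool) codeP f,
        ∀ j, Finite (T.tm.Γ j)) ∧
      (∀ x, (toMv (f x)).totalDegree ≤ 4) ∧
      ∀ x, (∃ r : List Bool, r.length ≤ 2 ^ q.eval x.length ∧ V (pairW x r) = [true]) ↔
        HasZero (f x)) ∧
    -- no algorithm decides the problem in subexponential time
    (∃ c : ℕ, 0 < c ∧ ∀ (f : List Bool → List Bool)
      (T : Turing.TM2ComputableInTime (id : List Bool → List Bool) (id : List Bool → List Bool) f),
      (∀ F : Poly, (toMv F).totalDegree ≤ 4 → (f (codeP F) = [true] ↔ HasZero F)) →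
      ∀ K : ℕ, ∃ n : ℕ, ∀ m, m ^ c ≤ n → K * 2 ^ m < T.time n) ∧
    -- unsolvability has no certificates of subexponential length
    (∃ c : ℕ, 0 < c ∧ ∀ V : List Bool → List Bool, PolyTime V →
      (∀ F : Poly, (toMv F).totalDegree ≤ 4 → ∀ r, V (pairW (codeP F) r) = [true] →
        ¬ HasZero F) →
      ∀ K : ℕ, ∃ F : Poly, (toMv F).totalDegree ≤ 4 ∧ ¬ HasZero F ∧
        ∀ r, V (pairW (codeP F) r) = [true] →
          ∀ m, m ^ c ≤ (codeP F).length → K * 2 ^ m < r.length) ∧
    -- solvability has no certificates of subexponential length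
    (∃ c : ℕ, 0 < c ∧ ∀ V : List Bool → List Bool, PolyTime V →
      (∀ F : Poly, (toMv F).totalDegree ≤ 4 → ∀ r, V (pairW (codeP F) r) = [true] →
        HasZero F) →
      ∀ K : ℕ, ∃ F : Poly, (toMv F).totalDegree ≤ 4 ∧ HasZero F ∧
        ∀ r, V (pairW (codeP F) r) = [true] →
          ∀ m, m ^ c ≤ (codeP F).length → K * 2 ^ m < r.length) :=
  ⟨fun V q hV => nexp_hard_tm V q hV, no_time redLg, no_short redLg, no_short_sat redLg⟩

end Vale.Agent.Results.P027.NexpHard
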